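/-
helper45 — Track D2 (S0505), leaf C of helper91's blueprint
(`Crest.Agent.Helper91.S0505.Blueprint.imm_eq_blocks`): the padded product, cut into blocks,
is the iterated matrix multiplication polynomial.
-/
import Crest.Agent.Helper91.S0505.Defs

set_option autoImplicit false

namespace Crest.Agent.Helper45.S0505

open Crest.ArithCircuit MvPolynomial Crest.Agent.Helper91.S0505

/-- The product of the padded sequence over `Fin N`, `n ≤ N`, is the product of the `n` variable
matrices. -/
theorem prod_padMat (K : Type*) [CommSemiring K] (n N : ℕ) (h : n ≤ N) :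
    (List.ofFn fun k : Fin N => padMat K n k.val).prod = (List.ofFn (varMatrix K n)).prod := by
  obtain ⟨e, rfl⟩ := Nat.exists_eq_add_of_le h
  rw [List.ofFn_add, List.prod_append]
  have h1 : (List.ofFn fun i : Fin n =>
      padMat K n (Fin.castLE (Nat.le_add_right n e) i).val) = List.ofFn (varMatrix K n) := by
    congr 1
    funext i
    simp only [padMat, Fin.val_castLE]
    rw [dif_pos i.isLt]
  have h2 : (List.ofFn fun i : Fin e => padMat K n (Fin.natAdd n i).val).prod = 1 := by
    apply List.prod_eq_one
    intro x hx
    rw [List.mem_ofFn] at hx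
    obtain ⟨i, rfl⟩ := hx
    simp only [padMat, Fin.val_natAdd]
    rw [dif_neg (by omega)]
  rw [h1, h2, mul_one]

/-- The product of the blocks is the product of the whole padded sequence. -/
theorem prod_blockMat (K : Type*) [CommSemiring K] (n t r : ℕ) :
    (List.ofFn fun g : Fin r => blockMat K n t g.val).prod =
      (List.ofFn fun k : Fin (r * t) => padMat K n k.val).prod := by
  rw [List.ofFn_mul, List.prod_flatten, List.map_ofFn]
  rfl

/-- Leaf C (same statement as `Blueprint.imm_eq_blocks`). -/
theorem imm_eq_blocks (K : Type*) [CommSemiring K] (n' t ρ : ℕ) (h : n' + 1 ≤ (ρ + 1) * t) :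
    imm K (n' + 1) =
      (List.ofFn fun g : Fin (ρ + 1) => blockMat K (n' + 1) t g.val).prod 0 0 := by
  rw [prod_blockMat, prod_padMat K (n' + 1) ((ρ + 1) * t) h]
  rfl

end Crest.Agent.Helper45.S0505
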