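/-
helper45 — Track D2 (S0505): design-independent matrix leaves.

(G1) `list_ofFn_prod_apply`: path expansion of an entry of a product of `m+1` matrices.
(G2) `list_ofFn_prod_chunk`: chunking a product of `q*t + t'` factors into `q` blocks of length `t`
     and one block of length `t'`.
-/
import Mathlib

set_option autoImplicit false

namespace Crest.Agent.Helper45.S0505

open Finset

/-- (G1) Path expansion: the `(i, j)` entry of the ordered product of `m + 1` matrices is the sum,
over the `m` intermediate indices `g`, of the products of the entries along the path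
`i, g 0, …, g (m-1), j`. -/
theorem list_ofFn_prod_apply {R : Type*} [CommSemiring R] {n : Type*} [Fintype n] [DecidableEq n] :
    ∀ (m : ℕ) (A : Fin (m + 1) → Matrix n n R) (i j : n),
      (List.ofFn A).prod i j =
        ∑ g : Fin m → n, ∏ k : Fin (m + 1),
          A k ((Fin.cons i g : Fin (m + 1) → n) k) ((Fin.snoc g j : Fin (m + 1) → n) k)
  | 0, A, i, j => by
    have h0 : (0 : Fin 1) = Fin.last 0 := rfl
    simp only [List.ofFn_succ, List.ofFn_zero, List.prod_cons, List.prod_nil, mul_one,
      Fin.prod_univ_succ, Fin.prod_univ_zero, Fin.cons_zero, Finset.univ_unique,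
      Finset.sum_singleton]
    rw [h0, Fin.snoc_last]
  | m + 1, A, i, j => by
    rw [List.ofFn_succ, List.prod_cons, Matrix.mul_apply]
    rw [← (Fin.consEquiv (fun _ : Fin (m + 1) => n)).sum_comp, Fintype.sum_prod_type]
    refine Finset.sum_congr rfl fun l _ => ?_
    rw [list_ofFn_prod_apply m (fun k => A k.succ) l j, Finset.mul_sum]
    refine Finset.sum_congr rfl fun g _ => ?_
    have hce : (Fin.consEquiv (fun _ : Fin (m + 1) => n)) (l, g) = (Fin.cons l g : Fin (m + 1) → n) :=
      rfl
    rw [hce, Fin.prod_univ_succ (fun k : Fin (m + 1 + 1) =>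
      A k ((Fin.cons i (Fin.cons l g : Fin (m + 1) → n) : Fin (m + 1 + 1) → n) k)
        ((Fin.snoc (Fin.cons l g : Fin (m + 1) → n) j : Fin (m + 1 + 1) → n) k))]
    congr 1
    refine Finset.prod_congr rfl fun k _ => ?_
    rw [Fin.cons_succ, ← Fin.cons_snoc_eq_snoc_cons, Fin.cons_succ]

/-- (G2) Chunking: an ordered product of `q * t + t'` factors is the product of `q` blocks of `t`
consecutive factors followed by a last block of `t'` factors. -/
theorem list_ofFn_prod_chunk {M : Type*} [Monoid M] (q t t' : ℕ) (A : Fin (q * t + t') → M) :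
    (List.ofFn A).prod =
      (List.ofFn fun b : Fin q => (List.ofFn fun k : Fin t =>
          A ⟨b * t + k, by
            have h1 : (b : ℕ) * t + k < (b + 1) * t := by
              have := k.isLt
              nlinarith
            have h2 : ((b : ℕ) + 1) * t ≤ q * t := Nat.mul_le_mul_right _ b.isLt
            omega⟩).prod).prod *
        (List.ofFn fun k : Fin t' => A ⟨q * t + k, by have := k.isLt; omega⟩).prod := by
  rw [List.ofFn_add, List.prod_append]
  congr 1
  rw [List.ofFn_mul, List.prod_flatten, List.map_ofFn]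
  rfl

/-- Arithmetic of the block decomposition: with `t = ⌈√n⌉₊` and `r = ⌈n / t⌉₊` (the expressions of
the frozen statement S0505) and `n ≥ 1`, there are `q` and `t'` with `r = q + 1`,
`n = q * t + t'` and `1 ≤ t' ≤ t`. -/
theorem block_arith (n : ℕ) (hn : 1 ≤ n) :
    1 ≤ ⌈Real.sqrt n⌉₊ ∧
      ∃ q t' : ℕ, ⌈(n : ℝ) / ⌈Real.sqrt n⌉₊⌉₊ = q + 1 ∧ n = q * ⌈Real.sqrt n⌉₊ + t' ∧
        1 ≤ t' ∧ t' ≤ ⌈Real.sqrt n⌉₊ := by
  have hn' : (0 : ℝ) < n := by exact_mod_cast hn
  have ht : 1 ≤ ⌈Real.sqrt n⌉₊ := Nat.one_le_iff_ne_zero.mpr (by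
    intro h
    have := Nat.ceil_eq_zero.mp h
    have h2 : 0 < Real.sqrt n := Real.sqrt_pos.mpr hn'
    linarith)
  refine ⟨ht, ?_⟩
  set t := ⌈Real.sqrt n⌉₊ with ht_def
  have ht' : (0 : ℝ) < t := by exact_mod_cast ht
  have hr : 1 ≤ ⌈(n : ℝ) / t⌉₊ := Nat.one_le_iff_ne_zero.mpr (by
    intro h
    have := Nat.ceil_eq_zero.mp h
    have h2 : 0 < (n : ℝ) / t := div_pos hn' ht'
    linarith)
  set r := ⌈(n : ℝ) / t⌉₊ with hr_def
  -- `n ≤ r * t`
  have h1 : n ≤ r * t := by
    have h := Nat.le_ceil ((n : ℝ) / t)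
    rw [← hr_def] at h
    have h2 : (n : ℝ) ≤ r * t := by
      rw [div_le_iff₀ ht'] at h
      exact h
    exact_mod_cast h2
  -- `(r - 1) * t < n`
  have h2 : (r - 1) * t < n := by
    have hlt : r - 1 < ⌈(n : ℝ) / t⌉₊ := by rw [← hr_def]; omega
    have h := Nat.lt_ceil.mp hlt
    rw [lt_div_iff₀ ht'] at h
    exact_mod_cast h
  refine ⟨r - 1, n - (r - 1) * t, by omega, by omega, by omega, ?_⟩
  have h3 : r * t = (r - 1) * t + t := by
    have : r = (r - 1) + 1 := by omega
    conv_lhs => rw [this, Nat.add_mul, Nat.one_mul]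
  omega

end Crest.Agent.Helper45.S0505
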