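/-
helper45 — Track D2 (S0505), leaf E of helper91's blueprint (hedge / `second`): the values
computed by the gates of `circ` (`circ_valB`, `circ_valP`, `circ_valS`, `circ_output`), plus the
blueprint form of leaf B (`ofFn_prod_apply`) derived from `MatPath.list_ofFn_prod_apply`.
-/
import Crest.Agent.Helper91.S0505.Defs
import Crest.Agent.Helper45.S0505.Chunk
import Crest.Agent.Helper45.S0505.MatPath

set_option autoImplicit false

namespace Crest.Agent.Helper45.S0505

open Crest.ArithCircuit MvPolynomial Crest.Agent.Helper91.S0505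

theorem ext_castSucc {n m : ℕ} (i : Fin n) (f : Fin m → Fin n) (j : Fin n) (g : Fin (m + 1)) :
    ext i f j g.castSucc = (Fin.cons i f : Fin (m + 1) → Fin n) g := by
  unfold Crest.Agent.Helper91.S0505.ext
  rw [Fin.cons_snoc_eq_snoc_cons, Fin.snoc_castSucc]

theorem ext_succ {n m : ℕ} (i : Fin n) (f : Fin m → Fin n) (j : Fin n) (g : Fin (m + 1)) :
    ext i f j g.succ = (Fin.snoc f j : Fin (m + 1) → Fin n) g := by
  unfold Crest.Agent.Helper91.S0505.ext
  rw [Fin.cons_succ]

/-- Leaf B in the blueprint form (same statement as `Blueprint.ofFn_prod_apply`). -/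
theorem ofFn_prod_apply {R : Type*} [CommSemiring R] {n m : ℕ}
    (Q : Fin (m + 1) → Matrix (Fin n) (Fin n) R) (i j : Fin n) :
    (List.ofFn Q).prod i j =
      ∑ f : Fin m → Fin n, ∏ g : Fin (m + 1), Q g (ext i f j g.castSucc) (ext i f j g.succ) := by
  rw [list_ofFn_prod_apply]
  refine Finset.sum_congr rfl fun f _ => Finset.prod_congr rfl fun g _ => ?_
  rw [ext_castSucc, ext_succ]

theorem circ_valB (K : Type*) [CommSemiring K] (n' t' ρ : ℕ) (b : Var (n' + 1)) :
    (circ K n' t' ρ).valB b = X b := by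
  simp [SPSPS.valB, SPSPS.leafVal, circ]

theorem circ_valP (K : Type*) [CommSemiring K] (n' t' ρ : ℕ) (p : PIdx n' t' ρ) :
    (circ K n' t' ρ).valP p =
      ∏ s ∈ realSteps (n' + 1) (t' + 1) p.1.val,
        X (Fin.ofNat (n' + 1) (p.1.val * (t' + 1) + s.val),
          ext p.2.1 p.2.2.2 p.2.2.1 s.castSucc, ext p.2.1 p.2.2.2 p.2.2.1 s.succ) := by
  unfold SPSPS.valP
  have h : (circ K n' t' ρ).inP p = (realSteps (n' + 1) (t' + 1) p.1.val).val.map fun s =>
    ((Fin.ofNat (n' + 1) (p.1.val * (t' + 1) + s.val),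
      ext p.2.1 p.2.2.2 p.2.2.1 s.castSucc, ext p.2.1 p.2.2.2 p.2.2.1 s.succ) : Var (n' + 1)) := rfl
  rw [h, Multiset.map_map, Finset.prod_eq_multiset_prod]
  congr 1
  refine Multiset.map_congr rfl fun s _ => ?_
  simp only [Function.comp_apply]
  rw [circ_valB]

/-- An entry of a padded matrix. -/
theorem padMat_apply (K : Type*) [CommSemiring K] (n' k : ℕ) (a b : Fin (n' + 1)) :
    padMat K (n' + 1) k a b =
      if k < n' + 1 then (X (Fin.ofNat (n' + 1) k, a, b) : MvPolynomial (Var (n' + 1)) K)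
      else if a = b then 1 else 0 := by
  unfold padMat
  by_cases h : k < n' + 1
  · rw [dif_pos h, if_pos h]
    have : Fin.ofNat (n' + 1) k = ⟨k, h⟩ := by
      apply Fin.ext
      simp [Fin.ofNat, Nat.mod_eq_of_lt h]
    rw [this]
    rfl
  · rw [dif_neg h, if_neg h, Matrix.one_apply]

/-- A product of factors that are either a "real" factor or a `0/1` indicator. -/
theorem prod_ite_ite {M : Type*} [CommMonoidWithZero M] {ι : Type*} [Fintype ι] [DecidableEq ι]
    (R : ι → Prop) [DecidablePred R] (c : ι → Prop) [DecidablePred c] (x : ι → M) :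
    (∏ s : ι, if R s then x s else if c s then 1 else 0) =
      if ∀ s, ¬ R s → c s then ∏ s ∈ Finset.univ.filter R, x s else 0 := by
  by_cases h : ∀ s, ¬ R s → c s
  · rw [if_pos h, Finset.prod_filter]
    refine Finset.prod_congr rfl fun s _ => ?_
    by_cases hR : R s
    · rw [if_pos hR, if_pos hR]
    · rw [if_neg hR, if_neg hR, if_pos (h s hR)]
  · rw [if_neg h]
    obtain ⟨s, hs⟩ := not_forall.mp h
    obtain ⟨hR, hc⟩ := Classical.not_imp.mp hs
    apply Finset.prod_eq_zero (Finset.mem_univ s)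
    rw [if_neg hR, if_neg hc]

theorem circ_valS (K : Type*) [CommSemiring K] (n' t' ρ : ℕ) (q : SIdx n' ρ) :
    (circ K n' t' ρ).valS q = blockMat K (n' + 1) (t' + 1) q.1.val q.2.1 q.2.2 := by
  unfold SPSPS.valS
  have hin : (circ K n' t' ρ).inS q = (Finset.univ.filter fun w : Fin t' → Fin (n' + 1) =>
      ∀ s : Fin (t' + 1), n' + 1 ≤ q.1.val * (t' + 1) + s.val →
        Crest.Agent.Helper91.S0505.ext q.2.1 w q.2.2 s.castSucc =
          Crest.Agent.Helper91.S0505.ext q.2.1 w q.2.2 s.succ).map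
    ⟨fun w => ((q.1, q.2.1, q.2.2, w) : PIdx n' t' ρ), fun _ _ h => by simpa using h⟩ := rfl
  have hcoef : ∀ p, (circ K n' t' ρ).coefS q p = 1 := fun _ => rfl
  rw [hin, Finset.sum_map]
  simp only [hcoef, one_smul]
  unfold blockMat
  rw [ofFn_prod_apply, Finset.sum_filter]
  refine Finset.sum_congr rfl fun w _ => ?_
  rw [circ_valP]
  simp only [padMat_apply]
  rw [prod_ite_ite]
  have hiff : (∀ s : Fin (t' + 1), ¬ (q.1.val * (t' + 1) + s.val < n' + 1) →
        Crest.Agent.Helper91.S0505.ext q.2.1 w q.2.2 s.castSucc =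
          Crest.Agent.Helper91.S0505.ext q.2.1 w q.2.2 s.succ) ↔
      (∀ s : Fin (t' + 1), n' + 1 ≤ q.1.val * (t' + 1) + s.val →
        Crest.Agent.Helper91.S0505.ext q.2.1 w q.2.2 s.castSucc =
          Crest.Agent.Helper91.S0505.ext q.2.1 w q.2.2 s.succ) := by
    refine forall_congr' fun s => ?_
    rw [Nat.not_lt]
  simp only [hiff]
  rfl

theorem circ_output (K : Type*) [CommSemiring K] (n' t' ρ : ℕ)
    (h : n' + 1 ≤ (ρ + 1) * (t' + 1)) : (circ K n' t' ρ).output = imm K (n' + 1) := by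
  rw [imm_eq_blocks K n' (t' + 1) ρ h, ofFn_prod_apply]
  unfold SPSPS.output
  have hin : (circ K n' t' ρ).inOut = Finset.univ := rfl
  have hcoef : ∀ r, (circ K n' t' ρ).coefOut r = 1 := fun _ => rfl
  rw [hin]
  refine Finset.sum_congr rfl fun f _ => ?_
  rw [hcoef, one_smul]
  unfold SPSPS.valR
  have hR : (circ K n' t' ρ).inR f = (Finset.univ : Finset (Fin (ρ + 1))).val.map fun g =>
    ((g, Crest.Agent.Helper91.S0505.ext 0 f 0 g.castSucc,
      Crest.Agent.Helper91.S0505.ext 0 f 0 g.succ) : SIdx n' ρ) := rfl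
  rw [hR, Multiset.map_map, Finset.prod_eq_multiset_prod]
  congr 1
  refine Multiset.map_congr rfl fun g _ => ?_
  simp only [Function.comp_apply]
  rw [circ_valS]

end Crest.Agent.Helper45.S0505
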